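import Crest.Agent.R014.Glue_792
import Crest.Agent.R014.N2Bad_675
import Crest.Agent.R014.N1Z_479

/-!
# Row 14: the three statements from Theorem B (helper792)

Theorem A is unconditional (`N2_675.thmA'` and `N1Z_479.resLower`).  `s17`, `s18`, `s19` are the
literal statements S0017, S0018, S0019 with Theorem B of the right degree as hypothesis.
-/

set_option autoImplicit false

open Crest.NumberTheoryR.Packets MeasureTheory Filter Topology
open Crest.Agent.R014.Iface_792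

universe u

namespace Crest.Agent.R014.Fin_792

theorem thmA {d : ℕ} (hd : 3 ≤ d + 1) (hcase : Odd (d + 1) ∨ (d + 1 = 4 ∨ d + 1 = 6)) :
    ThmA.{u} d :=
  N2_675.thmA' (by omega) (N1Z_479.resLower (d + 1) hd hcase)

theorem s17 (d : ℕ) (hprime : (d + 1).Prime) (h5 : 5 ≤ d + 1) (hB : ThmB d)
    (K : ℕ → Type u) [∀ i, Field (K i)] [∀ i, NumberField (K i)] [∀ i, NumberField.IsTotallyReal (K i)]
    (hdeg : ∀ i, Module.finrank ℚ (K i) = d + 1)
    (m : ∀ i, LatticeBasis (d + 1) (K i)) (σ : ∀ i, Fin (d + 1) ≃ (K i →+* ℝ))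
    (hdisc : Tendsto (fun i => latticeDisc (m i)) atTop atTop) :
    ∃ ν : Measure (ModSpace (d + 1)), IsHaarProbability ν ∧
      (∀ i, ∃ μ : Measure (ModSpace (d + 1)), IsPacketMeasure (m i) (σ i) μ) ∧
      ∀ μ : ℕ → Measure (ModSpace (d + 1)), (∀ i, IsPacketMeasure (m i) (σ i) (μ i)) →
        (∀ f : ModSpace (d + 1) → ℝ, Continuous f → HasCompactSupport f →
          Tendsto (fun i => ∫ x, f x ∂(μ i)) atTop (𝓝 (∫ x, f x ∂ν))) ∧
        (∀ ε : ℝ, 0 < ε → ∃ C : Set (ModSpace (d + 1)), IsCompact C ∧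
          ∀ᶠ i in atTop, 1 - ε ≤ ((μ i) C).toReal) :=
  Glue_792.main (thmA (by omega) (Or.inl (hprime.odd_of_ne_two (by omega)))) hB K hdeg
    (fun i => Asm_792.primitive_of_prime (by rw [hdeg i]; exact hprime)) m σ hdisc

theorem s18 (hB : ThmB 3)
    (K : ℕ → Type u) [∀ i, Field (K i)] [∀ i, NumberField (K i)] [∀ i, NumberField.IsTotallyReal (K i)]
    (hdeg : ∀ i, Module.finrank ℚ (K i) = 4) (hprim : ∀ i, IsPrimitiveField (K i))
    (m : ∀ i, LatticeBasis (3 + 1) (K i))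
    (σ : ∀ i, Fin (3 + 1) ≃ (K i →+* ℝ))
    (hdisc : Tendsto (fun i => latticeDisc (m i)) atTop atTop) :
    ∃ ν : Measure (ModSpace (3 + 1)), IsHaarProbability ν ∧
      (∀ i, ∃ μ : Measure (ModSpace (3 + 1)), IsPacketMeasure (m i) (σ i) μ) ∧
      ∀ μ : ℕ → Measure (ModSpace (3 + 1)), (∀ i, IsPacketMeasure (m i) (σ i) (μ i)) →
        (∀ f : ModSpace (3 + 1) → ℝ, Continuous f → HasCompactSupport f →
          Tendsto (fun i => ∫ x, f x ∂(μ i)) atTop (𝓝 (∫ x, f x ∂ν))) ∧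
        (∀ ε : ℝ, 0 < ε → ∃ C : Set (ModSpace (3 + 1)), IsCompact C ∧
          ∀ᶠ i in atTop, 1 - ε ≤ ((μ i) C).toReal) :=
  Glue_792.main (thmA (by omega) (Or.inr (Or.inl rfl))) hB K hdeg hprim m σ hdisc

theorem s19 (hB : ThmB 5)
    (K : ℕ → Type u) [∀ i, Field (K i)] [∀ i, NumberField (K i)] [∀ i, NumberField.IsTotallyReal (K i)]
    (hdeg : ∀ i, Module.finrank ℚ (K i) = 6) (hprim : ∀ i, IsPrimitiveField (K i))
    (m : ∀ i, LatticeBasis (5 + 1) (K i)) (hmax : ∀ i, (m i).IsMaximalOrder)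
    (σ : ∀ i, Fin (5 + 1) ≃ (K i →+* ℝ))
    (hdisc : Tendsto (fun i => |(NumberField.discr (K i) : ℝ)|) atTop atTop) :
    ∃ ν : Measure (ModSpace (5 + 1)), IsHaarProbability ν ∧
      (∀ i, ∃ μ : Measure (ModSpace (5 + 1)), IsPacketMeasure (m i) (σ i) μ) ∧
      ∀ μ : ℕ → Measure (ModSpace (5 + 1)), (∀ i, IsPacketMeasure (m i) (σ i) (μ i)) →
        (∀ f : ModSpace (5 + 1) → ℝ, Continuous f → HasCompactSupport f →
          Tendsto (fun i => ∫ x, f x ∂(μ i)) atTop (𝓝 (∫ x, f x ∂ν))) ∧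
        (∀ ε : ℝ, 0 < ε → ∃ C : Set (ModSpace (5 + 1)), IsCompact C ∧
          ∀ᶠ i in atTop, 1 - ε ≤ ((μ i) C).toReal) := by
  refine Glue_792.main (thmA (by omega) (Or.inr (Or.inr rfl))) hB K hdeg hprim m σ ?_
  simpa only [fun i => Asm_792.latticeDisc_max (m i) (hmax i)] using hdisc

end Crest.Agent.R014.Fin_792
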